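import Mathlib
import Crest.Agent.Lib.BorsukUlam.Basic

/-!
A Borsuk–Ulam theorem for a product of two spheres `S^a × S^b`: a continuous map
`(f, g) : S^a × S^b → ℝ^a × ℝ^b` with `f` odd in both variables and `g` even in the first, odd in
the second variable has a zero.
-/

set_option autoImplicit false

namespace Crest.Agent.Lib.BorsukUlam

open scoped RealInnerProductSpace

section Cochains2

variable {X : Type*}

lemma cupAll_map_semi (α : X → X) (χs : List (X → ZMod 2)) (l : List X)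
    (hl : l.length = χs.length + 1) (h : ∀ χ ∈ χs, ∃ c, ∀ x ∈ l, χ (α x) = χ x + c) :
    cupAll χs (l.map α) = cupAll χs l := by
  induction χs generalizing l with
  | nil => rfl
  | cons χ χs ih =>
    match l, hl with
    | x :: y :: l, hl =>
      have hl' : l.length = χs.length := by simpa using hl
      simp only [List.map_cons]
      rw [cupAll_cons _ _ _ _ _ (by simpa using hl'), cupAll_cons _ _ _ _ _ hl']
      have := ih (y :: l) (by simp [hl']) (fun χ' hχ' => by
        obtain ⟨c, hc⟩ := h χ' (by simp [hχ'])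
        exact ⟨c, fun z hz => hc z (List.mem_cons_of_mem _ hz)⟩)
      simp only [List.map_cons] at this
      obtain ⟨c, hc⟩ := h χ (by simp)
      rw [this, hc x (by simp), hc y (by simp)]
      have h3 := two_self (c * cupAll χs (y :: l))
      linear_combination h3

lemma cupAll_comp {Y : Type*} (ι : Y → X) (χs : List (X → ZMod 2)) (l : List Y) :
    cupAll χs (l.map ι) = cupAll (χs.map (fun χ => χ ∘ ι)) l := by
  induction χs generalizing l with
  | nil => rfl
  | cons χ χs ih =>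
    simp only [cupAll, List.map_cons]
    rw [cob_map]
    congr 1
    funext m
    cases m with
    | nil => rfl
    | cons y m =>
      have := ih (y :: m)
      simp only [List.map_cons] at this
      simp only [List.map_cons, cup, this, Function.comp]

lemma prism_map_left {Y Z : Type*} (f g : X → Y) (α : Z → X) (φ : List Y → ZMod 2) (l : List Z) :
    prism f g φ (l.map α) = prism (f ∘ α) (g ∘ α) φ l := by
  induction l generalizing φ with
  | nil => rfl
  | cons a l ih =>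
    simp only [List.map_cons, prism, ih, Function.comp, List.map_map]

lemma prism_map_right {Y Z : Type*} (f g : X → Y) (α : Y → Z) (φ : List Z → ZMod 2) (l : List X) :
    prism (α ∘ f) (α ∘ g) φ l = prism f g (fun m => φ (m.map α)) l := by
  induction l generalizing φ with
  | nil => rfl
  | cons a l ih =>
    simp only [List.map_cons, prism, ih, Function.comp, List.map_map]

end Cochains2

section Prod

variable {Y E : Type*} [NormedAddCommGroup Y] [NormedAddCommGroup E] [InnerProductSpace ℝ E]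

/-- Antipode in the first factor. -/
def neg1 : Y × E → Y × E := fun z => (-z.1, z.2)

/-- Antipode in the second factor. -/
def neg2 : Y × E → Y × E := fun z => (z.1, -z.2)

/-- Rotation in the second factor. -/
noncomputable def rot2 (p : E) (N j : ℕ) : Y × E → Y × E := fun z => (z.1, rot p N j z.2)

/-- Evaluation on the product of a chain in the first factor with a hemisphere chain. -/
noncomputable def ev2 (L : (List (Y × E) → ZMod 2) → ZMod 2) (e : ℕ → E) (N : ℕ) :
    ℕ → (List (Y × E) → ZMod 2) → ZMod 2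
  | 0, φ => L φ
  | k + 1, φ => ∑ j ∈ Finset.range N,
      (ev2 L e N k (prism (rot2 (e (k + 1)) N j) (rot2 (e (k + 1)) N (j + 1)) φ) +
        ev2 L e N k (fun l => prism (rot2 (e (k + 1)) N j) (rot2 (e (k + 1)) N (j + 1)) φ
          (l.map neg2)))

/-- Cochains invariant under the first antipode in degree `m`. -/
def Inv1 (m : ℕ) (φ : List (Y × E) → ZMod 2) : Prop :=
  ∀ l : List (Y × E), l.length = m → (∀ z ∈ l, ‖z.1‖ = 1) → φ (l.map neg1) = φ l

omit [InnerProductSpace ℝ E] in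
lemma Inv1.neg2 {m : ℕ} {φ : List (Y × E) → ZMod 2} (h : Inv1 m φ) :
    Inv1 m (fun l => φ (l.map neg2)) := by
  intro l hl hu
  have h1 : (l.map neg1).map BorsukUlam.neg2 = (l.map BorsukUlam.neg2).map neg1 := by
    simp only [List.map_map]; rfl
  simp only [h1]
  apply h
  · simpa using hl
  · intro z hz
    obtain ⟨w, hw, rfl⟩ := List.mem_map.1 hz
    exact hu w hw

lemma Inv1.prism {m : ℕ} {φ : List (Y × E) → ZMod 2} (h : Inv1 (m + 1) φ) (p : E) (N j j' : ℕ) :
    Inv1 m (prism (rot2 p N j) (rot2 p N j') φ) := by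
  intro l hl hu
  have h1 : ∀ i, (rot2 p N i : Y × E → Y × E) ∘ neg1 = neg1 ∘ rot2 p N i := fun i => rfl
  rw [prism_map_left, h1, h1, prism_map_right]
  have h2 := prism_eq_zero (rot2 p N j) (rot2 p N j') (fun m => φ (m.map neg1) + φ m) l (by
    intro m' hm' hy
    rw [h m' (by rw [hm', hl]) (by
      intro z hz
      obtain ⟨x, hx, rfl | rfl⟩ := hy z hz
      · exact hu x hx
      · exact hu x hx), two_self])
  rw [prism_add] at h2
  have h3 := two_self (BorsukUlam.prism (rot2 p N j) (rot2 p N j') φ l)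
  linear_combination h2 - h3

omit [NormedAddCommGroup Y] in
lemma ev2_add {L : (List (Y × E) → ZMod 2) → ZMod 2}
    (hL : ∀ φ ψ, L (fun m => φ m + ψ m) = L φ + L ψ) (e : ℕ → E) (N k : ℕ)
    (φ ψ : List (Y × E) → ZMod 2) :
    ev2 L e N k (fun m => φ m + ψ m) = ev2 L e N k φ + ev2 L e N k ψ := by
  induction k generalizing φ ψ with
  | zero => simp [ev2, hL]
  | succ k ih =>
    simp only [ev2]
    rw [← Finset.sum_add_distrib]
    refine Finset.sum_congr rfl fun j _ => ?_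
    have h1 : prism (rot2 (e (k + 1)) N j) (rot2 (e (k + 1)) N (j + 1)) (fun m => φ m + ψ m) =
        fun l => prism (rot2 (e (k + 1)) N j) (rot2 (e (k + 1)) N (j + 1)) φ l +
          prism (rot2 (e (k + 1)) N j) (rot2 (e (k + 1)) N (j + 1)) ψ l :=
      funext fun l => prism_add _ _ _ _ l
    rw [h1, ih, ih]
    ring

lemma ev2_stokes {L : (List (Y × E) → ZMod 2) → ZMod 2} {a : ℕ}
    (hL : ∀ φ ψ, L (fun m => φ m + ψ m) = L φ + L ψ)
    (hL0 : ∀ ψ, Inv1 a ψ → L (cob ψ) + L (cob (fun l => ψ (l.map neg2))) = 0)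
    (e : ℕ → E) (N : ℕ) (hN : 0 < N) (k : ℕ) (φ : List (Y × E) → ZMod 2)
    (hφ : Inv1 (a + k + 1) φ) :
    ev2 L e N (k + 1) (cob φ) = ev2 L e N k φ + ev2 L e N k (fun l => φ (l.map neg2)) := by
  induction k using Nat.strong_induction_on generalizing φ with
  | _ k ih =>
    have hcyc : ∀ ψ : List (Y × E) → ZMod 2, Inv1 (a + k) ψ →
        ev2 L e N k (cob ψ) + ev2 L e N k (fun l => cob ψ (l.map neg2)) = 0 := by
      intro ψ hψ
      have h1 : (fun l : List (Y × E) => cob ψ (l.map neg2)) =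
          cob (fun m => ψ (m.map neg2)) := funext fun l => cob_map _ _ l
      rw [h1]
      cases k with
      | zero => exact hL0 ψ hψ
      | succ k =>
        rw [ih k (by omega) _ hψ, ih k (by omega) _ hψ.neg2]
        simp only [List.map_map]
        have h2 : (neg2 ∘ neg2 : Y × E → Y × E) = id := by funext x; simp [neg2]
        simp only [h2, List.map_id]
        have h3 := two_self (ev2 L e N k ψ)
        have h4 := two_self (ev2 L e N k (fun l => ψ (l.map neg2)))
        linear_combination h3 + h4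
    set S : ℕ → ZMod 2 := fun j => ev2 L e N k (fun l => φ (l.map (rot2 (e (k + 1)) N j))) +
      ev2 L e N k (fun l => φ ((l.map neg2).map (rot2 (e (k + 1)) N j))) with hS
    have hstep : ∀ j,
        ev2 L e N k (prism (rot2 (e (k + 1)) N j) (rot2 (e (k + 1)) N (j + 1)) (cob φ)) +
        ev2 L e N k (fun l => prism (rot2 (e (k + 1)) N j) (rot2 (e (k + 1)) N (j + 1)) (cob φ)
          (l.map neg2)) = S (j + 1) - S j := by
      intro j
      have h1 : prism (rot2 (e (k + 1)) N j) (rot2 (e (k + 1)) N (j + 1)) (cob φ) = fun l =>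
          cob (prism (rot2 (e (k + 1)) N j) (rot2 (e (k + 1)) N (j + 1)) φ) l +
            (φ (l.map (rot2 (e (k + 1)) N j)) + φ (l.map (rot2 (e (k + 1)) N (j + 1)))) :=
        funext fun l => prism_cob _ _ _ l
      rw [h1]
      simp only [ev2_add hL]
      have h2 := hcyc (prism (rot2 (e (k + 1)) N j) (rot2 (e (k + 1)) N (j + 1)) φ)
        (hφ.prism _ _ _ _)
      have h3 := two_self (S j)
      simp only [hS] at h3 ⊢
      linear_combination h2 + h3
    have hsum : ev2 L e N (k + 1) (cob φ) = S N - S 0 := by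
      simp only [ev2]
      rw [Finset.sum_congr rfl fun j _ => hstep j, Finset.sum_range_sub]
    have hN' : (N : ℝ) ≠ 0 := by positivity
    have hrN : (rot2 (e (k + 1)) N N : Y × E → Y × E) = fun z => (z.1, e (k + 1)) := by
      funext x
      have : (N : ℝ) * (Real.pi / 2) / N = Real.pi / 2 := by field_simp
      simp [rot2, rot, this]
    have hr0 : (rot2 (e (k + 1)) N 0 : Y × E → Y × E) = id := by
      funext x
      simp [rot2, rot]
    have hSN : S N = 0 := by
      simp only [hS, hrN, List.map_map]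
      exact two_self _
    have hS0 : S 0 = ev2 L e N k φ + ev2 L e N k (fun l => φ (l.map neg2)) := by
      simp only [hS, hr0, List.map_id]
    rw [hsum, hSN, hS0]
    have h3 := two_self (ev2 L e N k φ + ev2 L e N k (fun l => φ (l.map neg2)))
    linear_combination -h3

/-- Small lists in the product at level `k`. -/
def Small2 (e : ℕ → E) (a n : ℕ) (η : ℝ) (k : ℕ) (l : List (Y × E)) : Prop :=
  l.length = a + k + 1 ∧
    (∀ z ∈ l, ‖z.1‖ = 1 ∧ ‖z.2‖ = 1 ∧ ∀ j, k < j → j ≤ n → ⟪z.2, e j⟫ = 0) ∧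
    ∀ x ∈ l, ∀ y ∈ l, dist x.1 y.1 ≤ a * η ∧ dist x.2 y.2 ≤ k * η

lemma Small2.neg {e : ℕ → E} {a n : ℕ} {η : ℝ} {k : ℕ} {l : List (Y × E)}
    (h : Small2 e a n η k l) : Small2 e a n η k (l.map neg2) := by
  refine ⟨by simpa using h.1, ?_, ?_⟩
  · intro x hx
    obtain ⟨y, hy, rfl⟩ := List.mem_map.1 hx
    refine ⟨(h.2.1 y hy).1, by simpa [neg2] using (h.2.1 y hy).2.1, fun j h1 h2 => ?_⟩
    simp [neg2, (h.2.1 y hy).2.2 j h1 h2]
  · intro x hx x' hx'
    obtain ⟨y, hy, rfl⟩ := List.mem_map.1 hx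
    obtain ⟨y', hy', rfl⟩ := List.mem_map.1 hx'
    simpa [neg2] using h.2.2 y hy y' hy'

lemma ev2_local {L : (List (Y × E) → ZMod 2) → ZMod 2} {a : ℕ} (e : ℕ → E) (n N : ℕ)
    (hN : 0 < N) (he1 : ∀ j, j ≤ n → ‖e j‖ = 1)
    (he0 : ∀ i j, i < j → j ≤ n → ⟪e i, e j⟫ = 0)
    (hL1 : ∀ φ, (∀ l, Small2 e a n (Real.pi / N) 0 l → φ l = 0) → L φ = 0)
    (k : ℕ) (hk : k ≤ n) (φ : List (Y × E) → ZMod 2)
    (hφ : ∀ l, Small2 e a n (Real.pi / N) k l → φ l = 0) : ev2 L e N k φ = 0 := by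
  induction k generalizing φ with
  | zero => exact hL1 φ hφ
  | succ k ih =>
    simp only [ev2]
    refine Finset.sum_eq_zero fun j _ => ?_
    have key : ∀ l, Small2 e a n (Real.pi / N) k l →
        prism (rot2 (e (k + 1)) N j) (rot2 (e (k + 1)) N (j + 1)) φ l = 0 := by
      intro l hl
      apply prism_eq_zero
      intro m hm hy
      apply hφ
      have hy' : ∀ y ∈ m, ∃ x ∈ l, ∃ i : ℕ, (i = j ∨ i = j + 1) ∧
          y = rot2 (e (k + 1)) N i x := by
        intro y h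
        obtain ⟨x, hx, h' | h'⟩ := hy y h
        · exact ⟨x, hx, j, Or.inl rfl, h'⟩
        · exact ⟨x, hx, j + 1, Or.inr rfl, h'⟩
      refine ⟨by rw [hm, hl.1]; ring, ?_, ?_⟩
      · intro y h
        obtain ⟨x, hx, i, -, rfl⟩ := hy' y h
        refine ⟨(hl.2.1 x hx).1, norm_rot _ _ _ _ (he1 _ hk) (hl.2.1 x hx).2.1
          ((hl.2.1 x hx).2.2 _ (by omega) hk), fun i' h1 h2 => ?_⟩
        simp only [rot2]
        rw [rot, inner_add_left, inner_smul_left, inner_smul_left,
          (hl.2.1 x hx).2.2 i' (by omega) h2, he0 _ _ h1 h2]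
        simp
      · intro y h y' h'
        obtain ⟨x, hx, i, hi, rfl⟩ := hy' y h
        obtain ⟨x', hx', i', hi', rfl⟩ := hy' y' h'
        have h1 := dist_rot (e (k + 1)) x.2 x'.2 N i i' (he1 _ hk) (hl.2.1 x' hx').2.1 hN (by
          rcases hi with rfl | rfl <;> rcases hi' with rfl | rfl <;> simp)
        have h2 := hl.2.2 x hx x' hx'
        refine ⟨h2.1, ?_⟩
        simp only [rot2]
        push_cast
        linarith [h2.2]
    rw [ih (by omega) _ key, ih (by omega) _ fun l hl => key _ hl.neg, add_zero]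

lemma ev2_cupAll {L : (List (Y × E) → ZMod 2) → ZMod 2} {a : ℕ} (e : ℕ → E) (n N : ℕ)
    (hN : 0 < N) (he1 : ∀ j, j ≤ n → ‖e j‖ = 1)
    (he0 : ∀ i j, i < j → j ≤ n → ⟪e i, e j⟫ = 0)
    (hL : ∀ φ ψ, L (fun m => φ m + ψ m) = L φ + L ψ)
    (hL0 : ∀ ψ, Inv1 a ψ → L (cob ψ) + L (cob (fun l => ψ (l.map neg2))) = 0)
    (hL1 : ∀ φ, (∀ l, Small2 e a n (Real.pi / N) 0 l → φ l = 0) → L φ = 0)
    (fs : List (Y × E → ZMod 2)) (hfs : fs.length = a) (hL2 : L (cupAll fs) = 1)
    (hf1 : ∀ χ ∈ fs, ∃ c, ∀ z : Y × E, ‖z.1‖ = 1 → χ (neg1 z) = χ z + c)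
    (hf2 : ∀ χ ∈ fs, ∃ c, ∀ z : Y × E, ‖z.1‖ = 1 → ‖z.2‖ = 1 → χ (neg2 z) = χ z + c)
    (gs : List (Y × E → ZMod 2)) (hk : gs.length ≤ n)
    (hg1 : ∀ χ ∈ gs, ∀ z : Y × E, ‖z.1‖ = 1 → χ (neg1 z) = χ z)
    (hg2 : ∀ χ ∈ gs, ∀ z : Y × E, ‖z.1‖ = 1 → ‖z.2‖ = 1 → χ (neg2 z) = χ z + 1) :
    ev2 L e N gs.length (cupAll (gs ++ fs)) = 1 := by
  induction gs with
  | nil => exact hL2
  | cons χ gs ih =>
    have hk' : gs.length ≤ n := by simp at hk; omega
    have ih' := ih hk' (fun χ' h => hg1 χ' (by simp [h])) (fun χ' h => hg2 χ' (by simp [h]))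
    show ev2 L e N (gs.length + 1) (cob (cup χ (cupAll (gs ++ fs)))) = 1
    have hinv1 : Inv1 (a + gs.length + 1) (cup χ (cupAll (gs ++ fs))) := by
      intro l hl hu
      have hinv := cupAll_map_semi neg1 (gs ++ fs) l (by simp [hl, hfs]; ring) (by
        intro χ' h
        rcases List.mem_append.1 h with h | h
        · exact ⟨0, fun z hz => by rw [hg1 χ' (by simp [h]) z (hu z hz), add_zero]⟩
        · obtain ⟨c, hc⟩ := hf1 χ' h
          exact ⟨c, fun z hz => hc z (hu z hz)⟩)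
      match l, hl, hu, hinv with
      | [], hl, _, _ => exact absurd hl (by simp)
      | x :: l, hl, hu, hinv =>
        simp only [List.map_cons] at hinv
        simp only [List.map_cons, cup, hinv]
        rw [hg1 χ (by simp) x (hu x (by simp))]
    rw [ev2_stokes hL hL0 e N hN _ _ hinv1, ← ev2_add hL]
    have h0 := ev2_local e n N hN he1 he0 hL1 gs.length hk'
      (fun l => (cup χ (cupAll (gs ++ fs)) l + cup χ (cupAll (gs ++ fs)) (l.map neg2)) +
        cupAll (gs ++ fs) l) (by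
        intro l hl
        have hinv := cupAll_map_semi neg2 (gs ++ fs) l (by simp [hl.1, hfs]; ring) (by
          intro χ' h
          rcases List.mem_append.1 h with h | h
          · exact ⟨1, fun z hz => hg2 χ' (by simp [h]) z (hl.2.1 z hz).1 (hl.2.1 z hz).2.1⟩
          · obtain ⟨c, hc⟩ := hf2 χ' h
            exact ⟨c, fun z hz => hc z (hl.2.1 z hz).1 (hl.2.1 z hz).2.1⟩)
        match l, hl, hinv with
        | [], hl, _ => exact absurd hl.1 (by simp)
        | x :: l, hl, hinv =>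
          simp only [List.map_cons] at hinv
          simp only [List.map_cons, cup, hinv]
          rw [hg2 χ (by simp) x (hl.2.1 x (by simp)).1 (hl.2.1 x (by simp)).2.1]
          have h3 := two_self (χ x * cupAll (gs ++ fs) (x :: l))
          have h4 := two_self (cupAll (gs ++ fs) (x :: l))
          linear_combination h3 + h4)
    rw [ev2_add hL, ih'] at h0
    have h5 := two_self (1 : ZMod 2)
    linear_combination h0 - h5

end Prod

/-- The standard orthonormal frame, indexed by naturals. -/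
lemma exists_frame (n : ℕ) : ∃ e : ℕ → EuclideanSpace ℝ (Fin (n + 1)),
    (∀ j, j ≤ n → ‖e j‖ = 1) ∧ ∀ i j, i < j → j ≤ n → ⟪e i, e j⟫ = 0 := by
  refine ⟨fun j => if h : j < n + 1 then EuclideanSpace.single ⟨j, h⟩ 1 else 0, ?_, ?_⟩
  · intro j hj
    have h1 : j < n + 1 := by omega
    simp only [h1, dif_pos]
    simp
  · intro i j hij hj
    have h1 : i < n + 1 := by omega
    have h2 : j < n + 1 := by omega
    simp only [h1, h2, dif_pos]
    rw [EuclideanSpace.inner_single_left]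
    simp [hij.ne]

/-- The sign cochain of a real function, with a prescribed value on the zero set. -/
noncomputable def sgnCochain {Y E : Type*} [NormedAddCommGroup E] (φ : Y × E → ℝ)
    (χ₀ : Y × E → ZMod 2) (z : Y × E) : ZMod 2 :=
  if ‖z.2‖ = 1 ∧ 0 < φ z then 1 else if ‖z.2‖ = 1 ∧ φ z < 0 then 0 else χ₀ z

lemma sgnCochain_odd {Y E : Type*} [NormedAddCommGroup E] (φ : Y × E → ℝ)
    (χ₀ : Y × E → ZMod 2) (z z' : Y × E) (h0 : ‖z'.2‖ = ‖z.2‖) (h1 : ‖z.2‖ = 1 → φ z' = -φ z)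
    (h2 : χ₀ z' = χ₀ z + 1) : sgnCochain φ χ₀ z' = sgnCochain φ χ₀ z + 1 := by
  unfold sgnCochain
  rw [h0]
  by_cases hz : ‖z.2‖ = 1
  · rw [h1 hz]
    rcases lt_trichotomy (φ z) 0 with h | h | h
    · simp [hz, h, not_lt.2 h.le]
    · simp [h, h2]
    · simp only [hz, h, not_lt.2 h.le, true_and, Left.neg_pos_iff, Left.neg_neg_iff, if_true,
        if_false]
      decide
  · simp [hz, h2]

lemma sgnCochain_even {Y E : Type*} [NormedAddCommGroup E] (φ : Y × E → ℝ)
    (χ₀ : Y × E → ZMod 2) (z z' : Y × E) (h0 : ‖z'.2‖ = ‖z.2‖) (h1 : ‖z.2‖ = 1 → φ z' = φ z)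
    (h2 : χ₀ z' = χ₀ z) : sgnCochain φ χ₀ z' = sgnCochain φ χ₀ z := by
  unfold sgnCochain
  rw [h0]
  by_cases hz : ‖z.2‖ = 1
  · rw [h1 hz, h2]
  · simp [hz, h2]

lemma sgnCochain_near {Y E : Type*} [NormedAddCommGroup E] (φ : Y × E → ℝ)
    (χ₀ : Y × E → ZMod 2) (x y z : Y × E) (δ : ℝ) (hx : δ ≤ |φ x|) (hy : ‖y.2‖ = 1)
    (hz : ‖z.2‖ = 1) (h1 : |φ y - φ x| < δ) (h2 : |φ z - φ x| < δ) :
    sgnCochain φ χ₀ y = sgnCochain φ χ₀ z := by
  unfold sgnCochain
  rw [abs_lt] at h1 h2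
  rcases le_abs.1 hx with h | h
  · have a1 : 0 < φ y := by linarith
    have a2 : 0 < φ z := by linarith
    simp [hy, hz, a1, a2]
  · have a1 : φ y < 0 := by linarith
    have a2 : φ z < 0 := by linarith
    simp [hy, hz, a1, a2, not_lt.2 a1.le, not_lt.2 a2.le]

/-- **Borsuk–Ulam for a product of two spheres.** -/
theorem borsuk_ulam_prod (a b : ℕ)
    (f : EuclideanSpace ℝ (Fin (a + 1)) × EuclideanSpace ℝ (Fin (b + 1)) → Fin a → ℝ)
    (g : EuclideanSpace ℝ (Fin (a + 1)) × EuclideanSpace ℝ (Fin (b + 1)) → Fin b → ℝ)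
    (hf : ContinuousOn f (Metric.sphere 0 1 ×ˢ Metric.sphere 0 1))
    (hg : ContinuousOn g (Metric.sphere 0 1 ×ˢ Metric.sphere 0 1))
    (hf1 : ∀ x y, ‖x‖ = 1 → ‖y‖ = 1 → f (-x, y) = -f (x, y))
    (hf2 : ∀ x y, ‖x‖ = 1 → ‖y‖ = 1 → f (x, -y) = -f (x, y))
    (hg1 : ∀ x y, ‖x‖ = 1 → ‖y‖ = 1 → g (-x, y) = g (x, y))
    (hg2 : ∀ x y, ‖x‖ = 1 → ‖y‖ = 1 → g (x, -y) = -g (x, y)) :
    ∃ x y, ‖x‖ = 1 ∧ ‖y‖ = 1 ∧ f (x, y) = 0 ∧ g (x, y) = 0 := by
  classical
  by_contra hcon
  push Not at hcon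
  set K : Set (EuclideanSpace ℝ (Fin (a + 1)) × EuclideanSpace ℝ (Fin (b + 1))) :=
    Metric.sphere 0 1 ×ˢ Metric.sphere 0 1 with hK
  have hKc : IsCompact K := (isCompact_sphere _ _).prod (isCompact_sphere _ _)
  have hmem : ∀ z : EuclideanSpace ℝ (Fin (a + 1)) × EuclideanSpace ℝ (Fin (b + 1)),
      ‖z.1‖ = 1 → ‖z.2‖ = 1 → z ∈ K := fun z h1 h2 => ⟨by simpa using h1, by simpa using h2⟩
  obtain ⟨e', he1', he0'⟩ := exists_frame a
  obtain ⟨e, he1, he0⟩ := exists_frame b
  have hF : ContinuousOn (fun z => (f z, g z)) K := hf.prodMk hg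
  obtain ⟨z₀, hz₀, hmin⟩ := hKc.exists_isMinOn ⟨(e' 0, e 0), hmem _ (he1' 0 (Nat.zero_le _))
    (he1 0 (Nat.zero_le _))⟩ hF.norm
  set δ := ‖(f z₀, g z₀)‖ with hδdef
  have hδ : 0 < δ := by
    rw [hδdef, norm_pos_iff]
    intro h
    exact hcon z₀.1 z₀.2 (by simpa using hz₀.1) (by simpa using hz₀.2) (congrArg Prod.fst h)
      (congrArg Prod.snd h)
  obtain ⟨η, hη, hunif⟩ := Metric.uniformContinuousOn_iff.1
    (hKc.uniformContinuousOn_of_continuous hF) δ hδ
  obtain ⟨N, hN⟩ := exists_nat_gt ((a + b) * Real.pi / η)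
  have hN0 : (0 : ℝ) < N := lt_of_le_of_lt (by positivity) hN
  have hNpos : 0 < N := by exact_mod_cast hN0
  obtain ⟨σ, hσ, -, -⟩ := exists_odd (∅ : Set (EuclideanSpace ℝ (Fin (a + 1)))) (by simp)
  obtain ⟨τ, hτ, -, -⟩ := exists_odd (∅ : Set (EuclideanSpace ℝ (Fin (b + 1)))) (by simp)
  let χf : Fin a → EuclideanSpace ℝ (Fin (a + 1)) × EuclideanSpace ℝ (Fin (b + 1)) → ZMod 2 :=
    fun i => sgnCochain (fun z => f z i) (fun z => σ z.1 + τ z.2)
  let χg : Fin b → EuclideanSpace ℝ (Fin (a + 1)) × EuclideanSpace ℝ (Fin (b + 1)) → ZMod 2 :=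
    fun i => sgnCochain (fun z => g z i) (fun z => τ z.2)
  have hχf1 : ∀ i z, ‖z.1‖ = 1 → χf i (neg1 z) = χf i z + 1 := by
    intro i z hz
    apply sgnCochain_odd
    · rfl
    · intro h2
      simp only [neg1]
      rw [hf1 _ _ hz h2]; rfl
    · simp only [neg1]
      rw [hσ _ hz]; ring
  have hχf2 : ∀ i z, ‖z.1‖ = 1 → ‖z.2‖ = 1 → χf i (neg2 z) = χf i z + 1 := by
    intro i z hz hz2
    apply sgnCochain_odd
    · simp [neg2]
    · intro h2
      simp only [neg2]
      rw [hf2 _ _ hz h2]; rfl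
    · simp only [neg2]
      rw [hτ _ hz2]; ring
  have hχg1 : ∀ i z, ‖z.1‖ = 1 → χg i (neg1 z) = χg i z := by
    intro i z hz
    apply sgnCochain_even
    · rfl
    · intro h2
      simp only [neg1]
      rw [hg1 _ _ hz h2]
    · rfl
  have hχg2 : ∀ i z, ‖z.1‖ = 1 → ‖z.2‖ = 1 → χg i (neg2 z) = χg i z + 1 := by
    intro i z hz hz2
    apply sgnCochain_odd
    · simp [neg2]
    · intro h2
      simp only [neg2]
      rw [hg2 _ _ hz h2]; rfl
    · simp only [neg2]
      rw [hτ _ hz2]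
  let ι : EuclideanSpace ℝ (Fin (a + 1)) →
      EuclideanSpace ℝ (Fin (a + 1)) × EuclideanSpace ℝ (Fin (b + 1)) := fun x => (x, e 0)
  let L : (List (EuclideanSpace ℝ (Fin (a + 1)) × EuclideanSpace ℝ (Fin (b + 1))) → ZMod 2) →
      ZMod 2 := fun φ => ev e' N a (fun l => φ (l.map ι))
  have hL : ∀ φ ψ, L (fun m => φ m + ψ m) = L φ + L ψ := fun φ ψ => ev_add _ _ _ _ _
  have hLc : ∀ ψ, Inv1 a ψ → 0 < a → L (cob ψ) = 0 := by
    intro ψ hψ ha
    obtain ⟨k, rfl⟩ : ∃ k, a = k + 1 := ⟨a - 1, by omega⟩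
    have h1 : (fun l => cob ψ (List.map ι l)) = cob (fun m => ψ (m.map ι)) :=
      funext fun l => cob_map _ _ l
    simp only [L, h1]
    rw [ev_stokes _ _ hNpos, ← ev_add]
    apply ev_local e' (k + 1) N hNpos he1' he0' k (by omega)
    intro l hl
    have h2 : (l.map Neg.neg).map ι = (l.map ι).map neg1 := by
      simp only [List.map_map]; rfl
    rw [h2, hψ _ (by simpa using hl.1) (by
      intro z hz
      obtain ⟨x, hx, rfl⟩ := List.mem_map.1 hz
      exact (hl.2.1 x hx).1), two_self]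
  have hL0 : ∀ ψ, Inv1 a ψ → L (cob ψ) + L (cob (fun l => ψ (l.map neg2))) = 0 := by
    intro ψ hψ
    rcases Nat.eq_zero_or_pos a with ha | ha
    · subst ha
      simp [L, ev, cob, two_self]
    · rw [hLc ψ hψ ha, hLc _ hψ.neg2 ha, add_zero]
  have hL1 : ∀ φ, (∀ l, Small2 e a b (Real.pi / N) 0 l → φ l = 0) → L φ = 0 := by
    intro φ hφ
    apply ev_local e' a N hNpos he1' he0' a le_rfl
    intro l hl
    apply hφ
    refine ⟨by simpa using hl.1, ?_, ?_⟩
    · intro z hz
      obtain ⟨x, hx, rfl⟩ := List.mem_map.1 hz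
      exact ⟨(hl.2.1 x hx).1, he1 0 (Nat.zero_le _), fun j h1 h2 => he0 0 j h1 h2⟩
    · intro z hz z' hz'
      obtain ⟨x, hx, rfl⟩ := List.mem_map.1 hz
      obtain ⟨x', hx', rfl⟩ := List.mem_map.1 hz'
      exact ⟨hl.2.2 x hx x' hx', by simp [ι]⟩
  have hL2 : L (cupAll (List.ofFn χf)) = 1 := by
    have h1 : (fun l => cupAll (List.ofFn χf) (List.map ι l)) =
        cupAll ((List.ofFn χf).map (fun χ => χ ∘ ι)) := funext fun l => cupAll_comp _ _ l
    simp only [L, h1]
    have h2 := ev_cupAll e' a N hNpos he1' he0' ((List.ofFn χf).map (fun χ => χ ∘ ι)) (by simp)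
      (by
        intro χ' h x hx
        obtain ⟨χ'', h', rfl⟩ := List.mem_map.1 h
        obtain ⟨i, rfl⟩ := List.mem_ofFn.1 h'
        exact hχf1 i (ι x) hx)
    simpa only [List.length_map, List.length_ofFn] using h2
  have h1 := ev2_cupAll e b N hNpos he1 he0 hL hL0 hL1 (List.ofFn χf) (by simp) hL2
    (by
      intro χ' h
      obtain ⟨i, rfl⟩ := List.mem_ofFn.1 h
      exact ⟨1, hχf1 i⟩)
    (by
      intro χ' h
      obtain ⟨i, rfl⟩ := List.mem_ofFn.1 h
      exact ⟨1, hχf2 i⟩)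
    (List.ofFn χg) (by simp)
    (by
      intro χ' h
      obtain ⟨i, rfl⟩ := List.mem_ofFn.1 h
      exact hχg1 i)
    (by
      intro χ' h
      obtain ⟨i, rfl⟩ := List.mem_ofFn.1 h
      exact hχg2 i)
  have h0 := ev2_local e b N hNpos he1 he0 hL1 (List.ofFn χg).length (by simp)
    (cupAll (List.ofFn χg ++ List.ofFn χf)) (by
    intro l hl
    apply cupAll_eq_zero _ _ (by rw [hl.1]; simp; ring)
    obtain ⟨x, hx⟩ : ∃ x, x ∈ l := List.exists_mem_of_length_pos (by rw [hl.1]; omega)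
    have hxK := hmem x (hl.2.1 x hx).1 (hl.2.1 x hx).2.1
    have hnear : ∀ y ∈ l, dist (f y, g y) (f x, g x) < δ := by
      intro y hy
      apply hunif y (hmem y (hl.2.1 y hy).1 (hl.2.1 y hy).2.1) x hxK
      have h2 := hl.2.2 y hy x hx
      simp only [List.length_ofFn] at h2
      rw [div_lt_iff₀ hη] at hN
      have hp : 0 < Real.pi / N := by positivity
      have h3 : (a + b) * (Real.pi / N) < η := by
        rw [← mul_div_assoc, div_lt_iff₀ hN0]; linarith
      have ha0 : (0 : ℝ) ≤ a := Nat.cast_nonneg _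
      have hb0 : (0 : ℝ) ≤ b := Nat.cast_nonneg _
      rw [Prod.dist_eq, max_lt_iff]
      constructor <;> nlinarith [h2.1, h2.2]
    have hbig : δ ≤ ‖(f x, g x)‖ := hmin hxK
    rw [Prod.norm_def, le_max_iff] at hbig
    rcases hbig with hbig | hbig
    · obtain ⟨i, hi⟩ : ∃ i, δ ≤ |f x i| := by
        by_contra hc
        push Not at hc
        exact absurd ((pi_norm_lt_iff hδ).2 hc) (not_lt.2 hbig)
      have hn : ∀ y ∈ l, |f y i - f x i| < δ := by
        intro y hy
        have h2 := hnear y hy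
        rw [Prod.dist_eq, max_lt_iff] at h2
        exact lt_of_le_of_lt (dist_le_pi_dist (f y) (f x) i) h2.1
      exact ⟨χf i, List.mem_append.2 (Or.inr (List.mem_ofFn.2 ⟨i, rfl⟩)), fun y hy z hz =>
        sgnCochain_near _ _ x y z δ hi (hl.2.1 y hy).2.1 (hl.2.1 z hz).2.1 (hn y hy) (hn z hz)⟩
    · obtain ⟨i, hi⟩ : ∃ i, δ ≤ |g x i| := by
        by_contra hc
        push Not at hc
        exact absurd ((pi_norm_lt_iff hδ).2 hc) (not_lt.2 hbig)
      have hn : ∀ y ∈ l, |g y i - g x i| < δ := by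
        intro y hy
        have h2 := hnear y hy
        rw [Prod.dist_eq, max_lt_iff] at h2
        exact lt_of_le_of_lt (dist_le_pi_dist (g y) (g x) i) h2.2
      exact ⟨χg i, List.mem_append.2 (Or.inl (List.mem_ofFn.2 ⟨i, rfl⟩)), fun y hy z hz =>
        sgnCochain_near _ _ x y z δ hi (hl.2.1 y hy).2.1 (hl.2.1 z hz).2.1 (hn y hy) (hn z hz)⟩)
  rw [h0] at h1
  exact zero_ne_one h1

end Crest.Agent.Lib.BorsukUlam
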